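import Vale.Agent.P275HE.Psi
import Vale.Agent.P275KR.Res

/-!
# P275 (helper32), block HS: the spectral curve of a Higgs bundle with a pole
-/

set_option linter.all false

open scoped Topology Matrix.Norms.Operator
open Set Filter Metric Matrix

noncomputable section

namespace Vale.Agent.P275HS

open Vale.Agent.P275GC Vale.Agent.P275GC.At Vale.Agent.P275MO Vale.Agent.P275MB Vale.Agent.P275HE
open Vale.Agent.P275NA (Fm Cy Mn)

variable {C : Type} [TopologicalSpace C] {n : ℕ} {A : At C} {l : Cy A ℂ} {τ : Ty n}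
  {i k : Fin A.N} {w s : ℂ} {z : Dat C A.N n} {x y : C} {o : Fin n} {j : Fin τ.m} {κ : ℝ}
  {r : ℝ} {h1 : 1 < r} {h2 : r ≤ A.R}

/-- the coefficients of the characteristic polynomial are analytic -/
theorem an_coeff {B : ℂ → Mn n} (h : AnalyticAt ℂ B w) (q : ℕ) :
    AnalyticAt ℂ (fun v => (B v).charpoly.coeff q) w := by
  have e : (fun v => (B v).charpoly.coeff q) = fun v =>
      MvPolynomial.aeval (fun p : Fin n × Fin n => B v p.1 p.2)
        ((charpoly (Matrix.of fun a b => (MvPolynomial.X (a, b) : MvPolynomial _ ℂ))).coeff q) := by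
    funext v
    have := congrArg (fun p => Polynomial.coeff p q) (charpoly_map
      (Matrix.of fun a b => (MvPolynomial.X (a, b) : MvPolynomial (Fin n × Fin n) ℂ))
      (MvPolynomial.aeval (R := ℂ) fun p : Fin n × Fin n => B v p.1 p.2).toRingHom)
    simp only [Polynomial.coeff_map] at this
    refine Eq.trans ?_ this
    congr 2
    ext a b
    simp
  rw [e]
  refine AnalyticAt.aeval_mvPolynomial (fun p => ?_) _
  exact ((LinearMap.toContinuousLinearMap (Matrix.entryLinearMap ℂ ℂ p.1 p.2)).analyticAt _).comp h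

theorem an_char {B : ℂ → Mn n} (h : AnalyticAt ℂ B w) : An n (fun v => (B v).charpoly) w :=
  ⟨Eventually.of_forall fun _ => mon_char _, an_coeff h⟩

/-- conjugation and scaling of simple eigenvalues -/
theorem smp_law {B B' g : Mn n} {c t : ℂ} (hg : g.det ≠ 0) (hc : c ≠ 0)
    (h : B * g = c • (g * B')) : Smp B.charpoly (c * t) ↔ Smp B'.charpoly t := by
  rw [char_conj (B := c • B') hg (by rw [h, mul_smul_comm]), smp_smul hc]

theorem roots_R (ht : HTy τ o j κ) {R : Mn n} (hq : R ∈ τ.q) :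
    R.charpoly.roots = R o o ::ₘ Multiset.replicate (n - 1) (κ * τ.η R j) := by
  rw [ht.chp R hq, Polynomial.roots_mul (mul_ne_zero (Polynomial.X_sub_C_ne_zero _)
    (pow_ne_zero _ (Polynomial.X_sub_C_ne_zero _))), Polynomial.roots_pow,
    Polynomial.roots_X_sub_C, Polynomial.roots_X_sub_C, Multiset.nsmul_singleton,
    Multiset.singleton_add]

theorem gen_R (ht : HTy τ o j κ) {R : Mn n} (hq : R ∈ τ.q) (hη : τ.η R j ≠ 0) (M : Multiset ℂ)
    (h : M ≤ R.charpoly.roots) (h0 : M ≠ 0) (hs : M.sum = 0) : M.card = n := by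
  classical
  have hn : 0 < n := o.pos
  have ha : (κ : ℂ) * τ.η R j ≠ 0 := mul_ne_zero (by exact_mod_cast ht.ne) hη
  rw [roots_R ht hq, ← Multiset.erase_le_iff_le_cons, Multiset.le_replicate_iff] at h
  obtain ⟨m, -, e⟩ := h
  by_cases c : R o o ∈ M
  · rw [← Multiset.cons_erase c, e] at hs ⊢
    rw [Multiset.sum_cons, Multiset.sum_replicate, ht.eta R hq, nsmul_eq_mul, ← add_mul] at hs
    have := (mul_eq_zero.1 hs).resolve_right ha
    have e2 : ((m + 1 : ℕ) : ℂ) = n := by push_cast; linear_combination this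
    rw [Multiset.card_cons, Multiset.card_replicate]
    exact_mod_cast e2
  · rw [Multiset.erase_of_notMem c] at e
    rw [e, Multiset.sum_replicate, nsmul_eq_mul] at hs
    have : m = 0 := by exact_mod_cast (mul_eq_zero.1 hs).resolve_right ha
    rw [this] at e
    exact absurd e h0

/-- the eigenvalue on the line `o` is simple -/
theorem smp_R (ht : HTy τ o j κ) {R : Mn n} (hq : R ∈ τ.q) (hη : τ.η R j ≠ 0) :
    Smp R.charpoly (R o o) := by
  have hn : (n : ℂ) ≠ 0 := by exact_mod_cast o.pos.ne'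
  have ha : (κ : ℂ) * τ.η R j ≠ 0 := mul_ne_zero (by exact_mod_cast ht.ne) hη
  have hb : R o o - κ * τ.η R j ≠ 0 := by
    rw [ht.eta R hq, show (1 - (n : ℂ)) * (κ * τ.η R j) - κ * τ.η R j = -(n * (κ * τ.η R j)) by ring]
    exact neg_ne_zero.2 (mul_ne_zero hn ha)
  have := ht.chp R hq
  generalize R o o = b at this hb
  rw [this]
  exact ⟨by simp, by simpa using pow_ne_zero _ hb⟩

variable [T2Space C]

/-- the transition law of the twisted Higgs field -/
theorem bz_law (g : Good A l z) (h0 : z.lam = 0) (h : w ∈ A.O i k) :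
    bz A z i w * z.g i k w =
      (A.d i k w * A.ox z.x z.x i k w) • (z.g i k w * bz A z k (A.tr i k w)) := by
  by_cases e : (A.e i).symm w = z.x
  · have a : z.x ∈ (A.e i).source := e ▸ map_tgt h.1
    have b : z.x ∈ (A.e k).source := e ▸ h.2
    obtain rfl : w = A.e i z.x := by rw [← e, rinv h.1]
    rw [tr_e a, bz_pole a, bz_pole b, mul_comm (A.d _ _ _), ox_d a b, one_smul, frc_inv g a b]
  · rw [bz_off ⟨h.1, e⟩, bz_off (off_tr h e), smul_mul_assoc, law0 g h0 h e, A.sec_sg z.x i k w h]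
    simp only [smul_eq_mul, mul_smul_comm, smul_smul]
    congr 1
    ring

/-- **the spectral data** -/
theorem spc_of (ht : HTy τ o j κ) (g : Good A l z) (h0 : z.lam = 0) (hq : z.R ∈ τ.q)
    (hη : τ.η z.R j ≠ 0) (hx : z.x ∈ (A.e i).source) :
    Spc A n (fun i k w => A.d i k w * A.ox z.x z.x i k w) (fun i w => (bz A z i w).charpoly) i
      (A.e i z.x) where
  cc := A.cc_d.tens (A.cc_ox z.x)
  an i _ h := an_char (bz_an g h i)
  tr _ _ _ h _ := smp_law (g.cc.det_ne h) (mul_ne_zero (d_ne h) ((A.cc_ox z.x).ne h))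
    (bz_law g h0 h)
  mem := map_src hx
  res _ a b := P275KR.res0 b a hx
  gen M a := gen_R ht hq hη M (by rwa [bz_pole hx, char_pole g hx] at a)

theorem smp_pole (ht : HTy τ o j κ) (g : Good A l z) (hq : z.R ∈ τ.q) (hη : τ.η z.R j ≠ 0)
    (hx : z.x ∈ (A.e i).source) : Smp (bz A z i (A.e i z.x)).charpoly (z.R o o) := by
  rw [bz_pole hx, char_pole g hx]
  exact smp_R ht hq hη

open Classical in
/-- the point `(w, s)` of the spectral curve in the chart `i`, read in all the charts -/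
def tv (A : At C) (x : C) (i : Fin A.N) (w s : ℂ) : Fin A.N → ℂ := fun k =>
  if (A.e i).symm w = x then s else A.d k i (A.tr i k w) * (s / A.sg x x i w)

theorem tv_pole (h : (A.e i).symm w = x) : tv A x i w s k = s := if_pos h

theorem tv_off (h : (A.e i).symm w ≠ x) :
    tv A x i w s k = A.d k i (A.tr i k w) * (s / A.sg x x i w) := if_neg h

theorem res_tv (h : (A.e i).symm w ≠ x) : tv (A.res r h1 h2) x i w s k =
    A.d k i (A.tr i k w) * (s / (A.res r h1 h2).sg x x i w) := if_neg h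

theorem res_tv0 (h : (A.e i).symm w = x) : tv (A.res r h1 h2) x i w s k = s := if_pos h

theorem tv_self (hw : w ∈ off A x i) : tv A x i w s i = s / A.sg x x i w := by
  rw [tv_off hw.2, tr_self hw.1, A.cc_d.one i w hw.1, one_mul]

theorem Roo_fb (ht : HTy τ o j κ) {m m₀ : Mod A l τ} (hm : m ∈ Fb m₀) :
    m.rep.1.R o o = m₀.rep.1.R o o := by
  rw [ht.eta _ m.rep.2.2, ht.eta _ m₀.rep.2.2]
  exact congrArg (fun v : Fin τ.m → ℂ => (1 - (n : ℂ)) * (κ * v j)) hm.2.2.1

theorem rep_x (m : Mod A l τ) : m.rep.1.x = m.x := by rw [← x_pt, m.pt_rep]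

theorem rep_lam (m : Mod A l τ) : m.rep.1.lam = m.lam := by rw [← lam_pt, m.pt_rep]

theorem om_fb {m m₀ : Mod A l τ} (h₀ : m₀ ∈ Om A l τ j) (hm : m ∈ Fb m₀) : m ∈ Om A l τ j :=
  ⟨by rw [hm.1, Complex.zero_im], by rw [hm.2.2.1]; exact h₀.2⟩

theorem fb_self {m : Mod A l τ} (h : m.lam = 0) : m ∈ Fb m := ⟨h, rfl, rfl, fun _ _ _ _ => rfl⟩

theorem fb_trans {m m' m₀ : Mod A l τ} (h : m ∈ Fb m₀) (h' : m' ∈ Fb m) : m' ∈ Fb m₀ :=
  ⟨h'.1, h'.2.1.trans h.2.1, h'.2.2.1.trans h.2.2.1, fun i w a b =>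
    (h'.2.2.2 i w a (h.2.1 ▸ b)).trans (h.2.2.2 i w a b)⟩

theorem eta_ne {m : Mod A l τ} (h : m ∈ Om A l τ j) : τ.η m.rep.1.R j ≠ 0 := fun e =>
  h.2 (by rw [Mod.η, e, Complex.zero_im])

/-- simple points of the spectral curve of `m₀` are admissible on the whole fibre -/
theorem adm_of (ht : HTy τ o j κ) {m m₀ : Mod A l τ} (g : Good (A.res r h1 h2) l m₀.rep.1)
    (h0 : m₀.lam = 0) (hm : m ∈ Fb m₀) (hw : w ∈ ball (0 : ℂ) r)
    (hs : Smp (bz (A.res r h1 h2) m₀.rep.1 i w).charpoly s)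
    (hp : (A.e i).symm w = m₀.x → s = m₀.rep.1.R o o) :
    AdM o m ((A.e i).symm w) (tv (A.res r h1 h2) m₀.x i w s) := by
  have hw' : w ∈ ball (0 : ℂ) A.R := ball_subset_ball h2 hw
  refine ⟨fun e k _ => ?_, fun e => ?_, fun e k k' a b => ?_⟩
  · rw [hm.2.1] at e
    rw [res_tv0 e, hp e, Roo_fb ht hm]
  · rw [hm.2.1] at e
    obtain ⟨k, a, b⟩ := A.cov ((A.e i).symm w)
    refine ⟨k, a, b, ?_⟩
    have c : (A.e k).symm (A.e k ((A.e i).symm w)) ≠ m₀.x := by rwa [(A.e k).left_inv a]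
    have hO : w ∈ (A.res r h1 h2).O i k :=
      res_O.2 ⟨⟨hw', a⟩, hw, mem_ball_zero_iff.2 (b.trans h1)⟩
    have hO' := tr_mem hO
    have ho : w ∈ off (A.res r h1 h2) m₀.rep.1.x i := ⟨hw, by rw [rep_x]; exact e⟩
    have := law0 g ((rep_lam m₀).trans h0) hO' (by rw [rep_x]; exact c)
    rw [tr_inv hO] at this
    rw [hm.2.2.2 k _ b c, res_tv e]
    refine (smp_law (g.cc.det_ne hO') (d_ne hO') this).2 ?_
    rw [bz_off ho, ← mul_div_cancel₀ s (sg_ne ho), smp_smul (sg_ne ho), rep_x] at hs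
    exact hs
  · rw [hm.2.1] at e
    have c : w ∈ A.O i k := ⟨hw', a⟩
    have d : w ∈ A.O i k' := ⟨hw', b⟩
    rw [res_tv e, res_tv e, A.cc_d.mul k k' i _ (tr_O c d) (tr_mem c), tr_tr c, mul_assoc]
    rfl

/-- change of the chart -/
theorem tv_tr {i' : Fin A.N} (h : w ∈ (A.res r h1 h2).O i i') (e : (A.e i).symm w ≠ x)
    (hk : (A.e i).symm w ∈ (A.e k).source) :
    tv (A.res r h1 h2) x i w (A.d i i' w * (A.res r h1 h2).ox x x i i' w * s) k =
      tv (A.res r h1 h2) x i' (A.tr i i' w) s k := by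
  have h' := (res_O.1 h).1
  have c : w ∈ A.O i k := ⟨h'.1, hk⟩
  have e' : (A.e i').symm (A.tr i i' w) ≠ x := by rwa [symm_tr h']
  have a := sg_ne (off_tr h e)
  have b := ((A.res r h1 h2).cc_ox x).ne h
  rw [res_tv e, res_tv e', (A.res r h1 h2).sec_sg x i i' w h, tr_tr h',
    A.cc_d.mul k i i' _ (tr_mem c) (tr_O c h'), tr_inv c, smul_eq_mul]
  change _ = _ * (s / (A.res r h1 h2).sg x x i' ((A.res r h1 h2).tr i i' w))
  field_simp

omit [T2Space C] in
theorem hkM_congr {t t' : Fin A.N → ℂ} (h : ∀ k, y ∈ (A.e k).source → t k = t' k)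
    {m m' : Mod A l τ} (H : HkM o m y t m') : HkM o m y t' m' := by
  obtain ⟨z, z', a, b, r, h1, h2, u, g, g', f⟩ := H
  exact ⟨z, z', a, b, r, h1, h2, u, g, g', f.lam, f.x, f.hol, f.det, f.law, f.con,
    fun i hi => h i hi.1 ▸ f.loc i hi, f.spl, f.R, f.fr⟩

omit [T2Space C] in
/-- the transformation reads `t` only in the charts which contain `y` -/
theorem psi_congr {t t' : Fin A.N → ℂ} (h : ∀ k, y ∈ (A.e k).source → t k = t' k)
    (m : Mod A l τ) : psi o y t m = psi o y t' m := by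
  have : HkM o m y t = HkM o m y t' := funext fun _ =>
    propext ⟨hkM_congr h, hkM_congr fun k a => (h k a).symm⟩
  exact congrArg (fun P : Mod A l τ → Prop => by
    classical exact if h : ∃ m', P m' then h.choose else m) this

/-- the continuity which `PSI.cont` asks for -/
theorem cont_tv {T : Type} [TopologicalSpace T] {w s : T → ℂ} (hw : Continuous w)
    (hs : Continuous s) (hb : ∀ p, w p ∈ ball (0 : ℂ) r) (x : C) (i k : Fin A.N) :
    ContinuousOn (fun p => nf A x ((A.e i).symm (w p)) k * tv (A.res r h1 h2) x i (w p) (s p) k)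
      {p | (A.e i).symm (w p) ∈ (A.e k).source} := by
  have hO : ∀ p, (A.e i).symm (w p) ∈ (A.e k).source → w p ∈ A.O i k := fun p a =>
    ⟨ball_subset_ball h2 (hb p), a⟩
  have ct : ∀ {f : ℂ → ℂ}, (∀ v ∈ A.O k i, AnalyticAt ℂ f v) →
      ContinuousOn (fun p => f (A.tr i k (w p))) {p | (A.e i).symm (w p) ∈ (A.e k).source} :=
    fun h p a => (((h _ (tr_mem (hO p a))).continuousAt.comp_of_eq
      ((an_tr (hO p a)).continuousAt.comp hw.continuousAt) rfl)).continuousWithinAt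
  by_cases hx : x ∈ ((A.res r h1 h2).e i).source
  · refine (((ct fun v a => (A.cc_ox x).an a).mul (ct fun v a => an_d a)).mul
      hs.continuousOn).congr fun p a => ?_
    by_cases e : (A.e i).symm (w p) = x
    · have b : A.tr i k (w p) = A.e k x := by rw [← e]; rfl
      rw [nf, if_pos e, res_tv0 e, Pi.mul_apply, Pi.mul_apply, b,
        ox_d (e ▸ a) hx.1]
    · have b := A.sec_sg x k i _ (tr_mem (hO p a))
      have c : A.sg x x i (w p) ≠ 0 := sg_ne ⟨(hO p a).1, e⟩
      have d : (A.res r h1 h2).sg x x i (w p) = A.sg x x i (w p) := by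
        rw [sg_mem hx, sg_mem hx.1]
        rfl
      rw [tr_inv (hO p a), smul_eq_mul] at b
      rw [nf, if_neg e, res_tv e, d, Pi.mul_apply, Pi.mul_apply]
      change A.sg x x k (A.tr i k (w p)) * _ = _
      rw [b]
      field_simp
  · refine (((ct fun v _ => an_sg x x k v).mul (ct fun v a => an_d a)).mul
      hs.continuousOn).congr fun p a => ?_
    have e : (A.e i).symm (w p) ≠ x := fun e =>
      hx (e ▸ map_tgt (A := A.res r h1 h2) (i := i) (hb p))
    rw [nf, if_neg e, res_tv e, sg_not hx, div_one, Pi.mul_apply, Pi.mul_apply, mul_assoc]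
    rfl

end Vale.Agent.P275HS
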